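import Vale.Agent.P371.Sharp

namespace Vale.Agent.Results.P371.LiebThirring

open Vale.Agent.P371

theorem result (γ : ℝ) (h1 : 1 / 2 < γ) (h2 : γ < 3 / 2) (m : ℕ) (hm : 1 ≤ m) :
    ltConst γ m = oneBound γ ∧ ltConst γ m = ltConst γ 1 ∧
      ltConst γ m = ENNReal.ofReal (oneConst γ) := by
  have h := le_antisymm (ltConst_le h1 h2 m) (le_ltConst h1 hm)
  have h' := le_antisymm (ltConst_le h1 h2 1) (le_ltConst h1 le_rfl)
  exact ⟨h.trans (oneBound_eq h1 h2).symm, h.trans h'.symm, h⟩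

end Vale.Agent.Results.P371.LiebThirring
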